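import Vale.Agent.P231.V.Main
import Vale.Agent.P231.G.Sym
import Vale.Agent.P231.A.Per

namespace Vale.Agent.P231

open scoped ContDiff Manifold ENNReal Topology
open Vale.Agent.P255 Vale.Agent.P234 Vale.Agent.P219.St Set Filter MeasureTheory

theorem final {m : ℕ} {M : Type*} [TopologicalSpace M] [ChartedSpace (Euc (m + 1)) M]
    [IsManifold 𝓘(ℝ, Euc (m + 1)) ∞ M] [T2Space M] [CompactSpace M] [ConnectedSpace M]
    (g : Metric (Euc (m + 1)) M) (hB : Blaschke g) (D : ℝ) (hD : diam g = ENNReal.ofReal D)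
    (k : ℕ) (hk : ∀ x v, nrm g x v = D →
      Module.finrank ℝ (LinearMap.ker (dexpm g x v : Euc (m + 1) →ₗ[ℝ] Euc (m + 1))) ≤ k) :
    (∀ x v, nrm g x v = 1 → ∀ t : ℝ, expm g x ((t + 2 * D) • v) = expm g x (t • v)) ∧
      ENNReal.ofReal (modelVol m k D) ≤ rmeas g (m + 1) univ ∧
      (rmeas g (m + 1) univ ≤ ENNReal.ofReal (modelVol m k D) → IsSymmetric g) := by
  letI : MeasurableSpace M := borel M
  haveI : BorelSpace M := ⟨rfl⟩
  have h : Bl g D := bl_of hB hD
  have hP : Per g D := h.per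
  have hk' : Nul g D k := fun x v hv => by
    rw [← dexpm_eq]
    exact hk x v hv
  have hE : Module.finrank ℝ (Euc (m + 1)) = m + 1 := by simp
  obtain ⟨μ, hμ⟩ := exists_rv g
  refine ⟨fun x v hv t => ?_, (vol_ge h hP hk' hμ).trans hμ.le, fun hle => ?_⟩
  · rw [expm_eq, expm_eq]
    exact per_unit h hP hv t
  · exact isSymmetric_of h hP fun p => sym_of h hP hE hk' (vol_eq h hP hk' hμ (hμ.le.trans hle) p)

end Vale.Agent.P231
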