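import Vale.Agent.P231.StmtC

/-!
The Ricci curvature.
-/

namespace Vale.Agent.P231

open Vale.Agent.P255 Vale.Agent.P234

variable {E M : Type*} [NormedAddCommGroup E] [NormedSpace ℝ E] [FiniteDimensional ℝ E]
  [TopologicalSpace M] [ChartedSpace E M] (g : Metric E M)

/-- The Ricci curvature `Ric(v, v)`, the trace of `z ↦ R(z, v) v`. -/
noncomputable def ric (x : M) (v : E) : ℝ :=
  ∑ i, (Module.finBasis ℝ E).repr
    (riem (g.g (chartAt E x)) (chartAt E x x) (Module.finBasis ℝ E i) v v) i

/-- The Ricci curvature is at least `c`. -/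
def RicGe (c : ℝ) : Prop := ∀ x v, c * ipr g x v v ≤ ric g x v

end Vale.Agent.P231
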