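import Vale.Agent.P231.FinalB
import Vale.Agent.P231.K.RicB

namespace Vale.Agent.P231

open scoped ContDiff Manifold ENNReal Topology
open Vale.Agent.P255 Vale.Agent.P234 Vale.Agent.P219.St Set Filter MeasureTheory

theorem finalC {m : ℕ} {M : Type*} [TopologicalSpace M] [ChartedSpace (Euc (m + 1)) M]
    [IsManifold 𝓘(ℝ, Euc (m + 1)) ∞ M] [T2Space M] [CompactSpace M] [ConnectedSpace M]
    (g : Metric (Euc (m + 1)) M) (hB : Blaschke g) (D : ℝ) (hD : diam g = ENNReal.ofReal D)
    (k : ℕ) (hk : NullLe g D k) (hc : RicGe g ((m + 3 * k) * (Real.pi / (2 * D)) ^ 2)) :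
    IsCROSS g := by
  have h : Bl g D := bl_of hB hD
  have hP : Per g D := h.per
  have hk' : Nul g D k := fun x v hv => by
    rw [← dexpm_eq]
    exact hk x v hv
  have hE : Module.finrank ℝ (Euc (m + 1)) = m + 1 := by simp
  exact isCROSS_of h hP (rig_of_ric h hP hE hk' hc) hE

end Vale.Agent.P231
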