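import Vale.Agent.P234.Defs
import Vale.Agent.P219.Stmt

/-!
Definitions used by the final statement: injectivity radius, diameter, Blaschke manifolds, symmetric
spaces, the volume of the model space.
-/

namespace Vale.Agent.P231

open scoped ContDiff Manifold ENNReal
open Vale.Agent.P255 Vale.Agent.P234 Set MeasureTheory

variable {E M : Type*} [NormedAddCommGroup E] [NormedSpace ℝ E] [TopologicalSpace M]
  [ChartedSpace E M] (g : Metric E M)

/-- The differential of `exp_x` at `v`. -/
noncomputable def dexpm (x : M) (v : E) : E →L[ℝ] E :=
  fderiv ℝ (chartAt E (expm g x v) ∘ expm g x) v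

/-- `exp_x` is injective with injective differential on the open ball of radius `r`, that is, a
diffeomorphism of this ball onto its image. -/
def Emb (x : M) (r : ℝ) : Prop :=
  InjOn (expm g x) {v | nrm g x v < r} ∧
    ∀ v, nrm g x v < r → Function.Injective (dexpm g x v)

/-- The injectivity radius at `x`. -/
noncomputable def injAt (x : M) : ℝ≥0∞ := ⨆ (r : ℝ) (_ : Emb g x r), ENNReal.ofReal r

/-- The injectivity radius. -/
noncomputable def injRad : ℝ≥0∞ := ⨅ x, injAt g x

/-- The diameter. -/
noncomputable def diam : ℝ≥0∞ := ⨆ (x : M) (y : M), ENNReal.ofReal (rdist g x y)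

/-- Blaschke manifolds: injectivity radius equal to the diameter. -/
def Blaschke : Prop := injRad g = diam g

/-- Globally symmetric: at every point the geodesic reflection is a distance preserving
bijection of the manifold. -/
def IsSymmetric : Prop :=
  ∀ p : M, ∃ σ : M ≃ M, (∀ x y, rdist g (σ x) (σ y) = rdist g x y) ∧
    ∀ v, σ (expm g p v) = expm g p (-v)

/-- The volume of the model of dimension `m + 1` and diameter `D` whose first conjugate points have
multiplicity `k`: the area of the unit `m`-sphere times the radial integral. -/
noncomputable def modelVol (m k : ℕ) (D : ℝ) : ℝ :=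
  (m + 1) * (volume (_root_.Metric.ball (0 : EuclideanSpace ℝ (Fin (m + 1))) 1)).toReal *
    ∫ r in (0 : ℝ)..D, (2 * D / Real.pi * Real.sin (Real.pi * r / (2 * D))) ^ m *
      Real.cos (Real.pi * r / (2 * D)) ^ k

end Vale.Agent.P231
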