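import Vale.Agent.P231.Stmt

/-!
Two more definitions used by the final statement.
-/

namespace Vale.Agent.P231

open Vale.Agent.P255 Vale.Agent.P234

variable {E M : Type*} [NormedAddCommGroup E] [NormedSpace ℝ E] [TopologicalSpace M]
  [ChartedSpace E M] (g : Metric E M)

/-- The kernel of the differential of `exp_x` at every vector of length `D` has dimension at
most `k`. -/
def NullLe (D : ℝ) (k : ℕ) : Prop :=
  ∀ x v, nrm g x v = D → Module.finrank ℝ (LinearMap.ker (dexpm g x v : E →ₗ[ℝ] E)) ≤ k

/-- Every unit speed geodesic is periodic with period `L`. -/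
def AllPeriodic (L : ℝ) : Prop :=
  ∀ x v, nrm g x v = 1 → ∀ t : ℝ, expm g x ((t + L) • v) = expm g x (t • v)

end Vale.Agent.P231
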