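import Vale.Agent.P231.StmtB

/-!
The compact rank one symmetric spaces as explicit metric spaces.
-/

namespace Vale.Agent.P231

open Vale.Agent.P255 Vale.Agent.P234 Quaternion Projectivization
open scoped LinearAlgebra.Projectivization

/-- The octonions, as pairs of quaternions. -/
abbrev Oct : Type := ℍ[ℝ] × ℍ[ℝ]

/-- The Cayley-Dickson product. -/
noncomputable def omul (x y : Oct) : Oct := (x.1 * y.1 - star y.2 * x.2, y.2 * x.1 + x.2 * star y.1)

/-- The conjugate of an octonion. -/
noncomputable def oconj (x : Oct) : Oct := (star x.1, -x.2)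

/-- The Euclidean inner product of two octonions. -/
noncomputable def oip (x y : Oct) : ℝ := (omul x (oconj y)).1.re

/-- The Cayley plane: Hermitian idempotent `3 × 3` octonionic matrices of trace one. -/
def Cayley : Type :=
  {X : Fin 3 → Fin 3 → Oct // (∀ i j, X j i = oconj (X i j)) ∧
    (∀ i j, ∑ l, omul (X i l) (X l j) = X i j) ∧ ∑ i, X i i = (1, 0)}

/-- The geodesic distance of the Cayley plane of diameter `π / 2`. -/
noncomputable def cayleyDist (X Y : Cayley) : ℝ :=
  Real.arccos √(∑ i, ∑ j, oip (X.1 i j) (Y.1 i j))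

/-- The Fubini-Study distance of the projective space of dimension `n` over `K`. -/
noncomputable def projDist (K : Type) [NormedDivisionRing K] [StarRing K] (n : ℕ)
    (p q : ℙ K (Fin (n + 1) → K)) : ℝ :=
  Real.arccos (‖∑ i, p.rep i * star (q.rep i)‖ / √((∑ i, ‖p.rep i‖ ^ 2) * ∑ i, ‖q.rep i‖ ^ 2))

/-- The geodesic distance of the round unit sphere of dimension `n`. -/
noncomputable def sphereDist (n : ℕ)
    (x y : _root_.Metric.sphere (0 : EuclideanSpace ℝ (Fin (n + 1))) 1) : ℝ :=
  InnerProductGeometry.angle x.1 y.1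

variable {E M : Type*} [NormedAddCommGroup E] [NormedSpace ℝ E] [TopologicalSpace M]
  [ChartedSpace E M] (g : Metric E M)

/-- `M` is isometric, after scaling, to the space `X` with distance `d`. -/
def IsoTo {X : Type} (d : X → X → ℝ) : Prop :=
  ∃ c : ℝ, 0 < c ∧ ∃ φ : M ≃ X, ∀ x y, rdist g x y = c * d (φ x) (φ y)

/-- `M` is isometric, after scaling, to a sphere, a real, complex or quaternionic projective space,
or the Cayley plane. -/
def IsCROSS : Prop :=
  (∃ n, IsoTo g (sphereDist n)) ∨ (∃ n, IsoTo g (projDist ℝ n)) ∨ (∃ n, IsoTo g (projDist ℂ n)) ∨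
    (∃ n, IsoTo g (projDist ℍ[ℝ] n)) ∨ IsoTo g cayleyDist

end Vale.Agent.P231
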